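import Mathlib

/-!
Definitions for the statements on perfect and near-perfect matchings.
-/

namespace Vale.Agent.Lib.P308

variable {V : Type*}

/-- A perfect matching as a set of edges, as in the problem statement. -/
def IsPM (G : SimpleGraph V) (M : Finset (Sym2 V)) : Prop :=
  (∀ e ∈ M, e ∈ G.edgeSet) ∧ ∀ v : V, ∃! e, e ∈ M ∧ v ∈ e

/-- A near-perfect matching: a matching leaving exactly two vertices uncovered. -/
def IsNearPM (G : SimpleGraph V) (M : Finset (Sym2 V)) : Prop :=
  (∀ e ∈ M, e ∈ G.edgeSet) ∧ (∀ v : V, ∀ e ∈ M, ∀ e' ∈ M, v ∈ e → v ∈ e' → e = e') ∧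
    Set.ncard {v : V | ∀ e ∈ M, v ∉ e} = 2

/-- The number of perfect matchings. -/
noncomputable def numPM (G : SimpleGraph V) : ℕ := Set.ncard {M : Finset (Sym2 V) | IsPM G M}

/-- The number of near-perfect matchings. -/
noncomputable def numNearPM (G : SimpleGraph V) : ℕ :=
  Set.ncard {M : Finset (Sym2 V) | IsNearPM G M}

end Vale.Agent.Lib.P308
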