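import Vale.Agent.Lib.P308.Ratio
import Vale.Agent.Lib.P308.Defs

/-!
Counting: from a bound on the length of shortest augmenting paths to a bound on the number of
near-perfect matchings; the transfer between involutions and edge sets.
-/

namespace Vale.Agent.Lib.P308

open Finset

variable {V : Type*} [Fintype V] [DecidableEq V]

/-- Perfect matchings as involutions. -/
def PMFn (G : SimpleGraph V) : Set (V → V) := {f | IsMatchingFn G f ∧ ∀ v, f v ≠ v}

/-- Near-perfect matchings as involutions. -/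
def NearFn (G : SimpleGraph V) : Set (V → V) :=
  {f | IsMatchingFn G f ∧ Set.ncard {v | f v = v} = 2}

/-- The mate of `v` in the edge set `M` (or `v` itself if `v` is uncovered). -/
noncomputable def mateFn (M : Finset (Sym2 V)) (v : V) : V :=
  open Classical in if h : ∃ w, s(v, w) ∈ M then Classical.choose h else v

lemma mateFn_mem {M : Finset (Sym2 V)} {v w : V} (h : s(v, w) ∈ M)
    (huniq : ∀ v : V, ∀ e ∈ M, ∀ e' ∈ M, v ∈ e → v ∈ e' → e = e') : mateFn M v = w := by
  classical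
  have hex : ∃ w, s(v, w) ∈ M := ⟨w, h⟩
  unfold mateFn
  rw [dif_pos hex]
  have hs := Classical.choose_spec hex
  have heq := huniq v _ hs _ h (Sym2.mem_mk_left _ _) (Sym2.mem_mk_left _ _)
  rcases Sym2.eq_iff.mp heq with ⟨_, h2⟩ | ⟨h1, h2⟩
  · exact h2
  · rw [h2, h1]

lemma mateFn_of_matching {G : SimpleGraph V} {M : Finset (Sym2 V)}
    (hG : ∀ e ∈ M, e ∈ G.edgeSet)
    (huniq : ∀ v : V, ∀ e ∈ M, ∀ e' ∈ M, v ∈ e → v ∈ e' → e = e') :
    IsMatchingFn G (mateFn M) := by
  classical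
  have hcases : ∀ v, (∃ w, s(v, w) ∈ M) ∨ mateFn M v = v := by
    intro v
    by_cases h : ∃ w, s(v, w) ∈ M
    · exact Or.inl h
    · right; unfold mateFn; rw [dif_neg h]
  refine ⟨?_, ?_⟩
  · intro v
    rcases hcases v with ⟨w, hw⟩ | h
    · rw [mateFn_mem hw huniq]
      have : s(w, v) ∈ M := by rwa [Sym2.eq_swap]
      exact mateFn_mem this huniq
    · rw [h, h]
  · intro v hv
    rcases hcases v with ⟨w, hw⟩ | h
    · rw [mateFn_mem hw huniq]
      have := hG _ hw
      simpa using this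
    · exact absurd h hv

lemma mateFn_fixed_iff {G : SimpleGraph V} {M : Finset (Sym2 V)}
    (hG : ∀ e ∈ M, e ∈ G.edgeSet)
    (huniq : ∀ v : V, ∀ e ∈ M, ∀ e' ∈ M, v ∈ e → v ∈ e' → e = e') (v : V) :
    mateFn M v = v ↔ ∀ e ∈ M, v ∉ e := by
  classical
  constructor
  · intro h e he hv
    obtain ⟨w, rfl⟩ := Sym2.mem_iff_exists.mp hv
    have h1 := mateFn_mem he huniq
    rw [h] at h1
    subst h1
    have := hG _ he
    simp at this
  · intro h
    unfold mateFn
    rw [dif_neg]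
    rintro ⟨w, hw⟩
    exact h _ hw (Sym2.mem_mk_left _ _)

lemma mateFn_injOn {G : SimpleGraph V} {M N : Finset (Sym2 V)}
    (hG : ∀ e ∈ M, e ∈ G.edgeSet)
    (huniq : ∀ v : V, ∀ e ∈ M, ∀ e' ∈ M, v ∈ e → v ∈ e' → e = e')
    (hG' : ∀ e ∈ N, e ∈ G.edgeSet)
    (huniq' : ∀ v : V, ∀ e ∈ N, ∀ e' ∈ N, v ∈ e → v ∈ e' → e = e')
    (h : mateFn M = mateFn N) : M = N := by
  classical
  have key : ∀ {A B : Finset (Sym2 V)}, (∀ e ∈ A, e ∈ G.edgeSet) →
      (∀ v : V, ∀ e ∈ A, ∀ e' ∈ A, v ∈ e → v ∈ e' → e = e') →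
      (∀ e ∈ B, e ∈ G.edgeSet) →
      (∀ v : V, ∀ e ∈ B, ∀ e' ∈ B, v ∈ e → v ∈ e' → e = e') →
      mateFn A = mateFn B → A ⊆ B := by
    intro A B hA huA hB huB hAB e he
    induction e using Sym2.ind with
    | _ v w =>
      have h1 := mateFn_mem he huA
      rw [hAB] at h1
      have hne : v ≠ w := by
        have := hA _ he
        simpa using G.ne_of_adj this
      by_cases hex : ∃ x, s(v, x) ∈ B
      · obtain ⟨x, hx⟩ := hex
        have h2 := mateFn_mem hx huB
        rw [h1] at h2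
        rwa [h2]
      · have h3 : mateFn B v = v := by unfold mateFn; rw [dif_neg hex]
        rw [h3] at h1
        exact absurd h1 hne
  exact Finset.Subset.antisymm (key hG huniq hG' huniq' h) (key hG' huniq' hG huniq h.symm)

/-- The edge set of a matching given by an involution. -/
def edgeSetOfFn (f : V → V) : Finset (Sym2 V) := univ.image (fun v => s(v, f v))

lemma edgeSetOfFn_isPM {G : SimpleGraph V} {f : V → V} (hf : f ∈ PMFn G) :
    IsPM G (edgeSetOfFn f) := by
  obtain ⟨hm, hne⟩ := hf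
  refine ⟨?_, ?_⟩
  · intro e he
    obtain ⟨v, _, rfl⟩ := mem_image.mp he
    exact hm.adj v (hne v)
  · intro v
    refine ⟨s(v, f v), ⟨mem_image.mpr ⟨v, mem_univ _, rfl⟩, Sym2.mem_mk_left _ _⟩, ?_⟩
    rintro e ⟨he, hv⟩
    obtain ⟨w, _, rfl⟩ := mem_image.mp he
    rcases Sym2.mem_iff.mp hv with rfl | rfl
    · rfl
    · rw [hm.invol, Sym2.eq_swap]

lemma edgeSetOfFn_inj {G : SimpleGraph V} {f g : V → V} (hg : g ∈ PMFn G)
    (h : edgeSetOfFn f = edgeSetOfFn g) : f = g := by
  funext v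
  have h1 : s(v, f v) ∈ edgeSetOfFn g := by
    rw [← h]; exact mem_image.mpr ⟨v, mem_univ _, rfl⟩
  obtain ⟨w, _, hw⟩ := mem_image.mp h1
  have hm := hg.1
  rcases Sym2.eq_iff.mp hw with ⟨h2, h3⟩ | ⟨h2, h3⟩
  · subst h2; exact h3.symm
  · subst h3
    rw [← h2, hm.invol]

lemma pm_le_of_fn (G : SimpleGraph V) : Set.ncard (PMFn G) ≤ numPM G := by
  classical
  unfold numPM
  apply Set.ncard_le_ncard_of_injOn edgeSetOfFn
  · intro f hf
    exact edgeSetOfFn_isPM hf
  · intro f hf g hg h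
    exact edgeSetOfFn_inj hg h

lemma near_le_of_fn (G : SimpleGraph V) : numNearPM G ≤ Set.ncard (NearFn G) := by
  classical
  unfold numNearPM
  apply Set.ncard_le_ncard_of_injOn mateFn
  · intro M hM
    refine ⟨mateFn_of_matching hM.1 hM.2.1, ?_⟩
    have : {v | mateFn M v = v} = {v | ∀ e ∈ M, v ∉ e} := by
      ext v
      exact mateFn_fixed_iff hM.1 hM.2.1 v
    rw [this]
    exact hM.2.2
  · intro M hM N hN h
    exact mateFn_injOn hM.1 hM.2.1 hN.1 hN.2.1 h

/-- If `G` has a perfect matching as a set of edges, then it has one as an involution. -/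
lemma exists_pmFn_of_isPM {G : SimpleGraph V} {M : Finset (Sym2 V)} (hM : IsPM G M) :
    ∃ g, g ∈ PMFn G := by
  classical
  have huniq : ∀ v : V, ∀ e ∈ M, ∀ e' ∈ M, v ∈ e → v ∈ e' → e = e' := by
    intro v e he e' he' hv hv'
    obtain ⟨e0, _, h0⟩ := hM.2 v
    rw [h0 e ⟨he, hv⟩, h0 e' ⟨he', hv'⟩]
  refine ⟨mateFn M, mateFn_of_matching hM.1 huniq, ?_⟩
  intro v hv
  obtain ⟨e0, ⟨he0, hv0⟩, _⟩ := hM.2 v
  exact (mateFn_fixed_iff hM.1 huniq v).mp hv e0 he0 hv0

/-- The counting step: if every near-perfect matching has an augmenting path with at most `L`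
vertices in its list `e`, then near-perfect matchings are at most `n ^ L` times perfect ones. -/
theorem near_le_pow_mul_pm (G : SimpleGraph V) (L : ℕ)
    (hL : ∀ f, f ∈ NearFn G → ∃ l e o, AugPath G f l e o ∧ l ≤ L) :
    Set.ncard (NearFn G) ≤ Fintype.card V ^ L * Set.ncard (PMFn G) := by
  classical
  rcases (NearFn G).eq_empty_or_nonempty with hE | ⟨f0, hf0⟩
  · simp [hE]
  have : Nonempty V := by
    have h2 := hf0.2
    by_contra hV
    rw [not_nonempty_iff] at hV
    have : {v | f0 v = v} = ∅ := Set.eq_empty_of_isEmpty _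
    rw [this] at h2
    simp at h2
  -- the map
  have hrel : ∀ f, f ∈ NearFn G → ∃ p : (Fin L → V) × (V → V), p.2 ∈ PMFn G ∧
      ∃ l e o, AugPath G f l e o ∧ l ≤ L ∧ flipFn f l e o = p.2 ∧
        ∀ t : Fin L, p.1 t = e (min t.1 (l - 1)) := by
    intro f hf
    obtain ⟨l, e, o, h, hlL⟩ := hL f hf
    refine ⟨(fun t => e (min t.1 (l - 1)), flipFn f l e o), ?_, l, e, o, h, hlL, rfl, fun _ => rfl⟩
    obtain ⟨hm, hcard⟩ := hf
    apply flipFn_perfect hm h
    -- the two ends are the only fixed points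
    intro v hv
    by_contra hcon
    simp only [not_or] at hcon
    have hsub : ({e 0, o (l - 1), v} : Set V) ⊆ {v | f v = v} := by
      intro x hx
      simp only [Set.mem_insert_iff, Set.mem_singleton_iff] at hx
      rcases hx with rfl | rfl | rfl
      · exact h.start
      · exact h.last
      · exact hv
    have hne : e 0 ≠ o (l - 1) := h.e_ne_o _ _ h.pos (by have := h.pos; omega)
    have h3 : Set.ncard ({e 0, o (l - 1), v} : Set V) = 3 := by
      rw [Set.ncard_eq_three]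
      exact ⟨e 0, o (l - 1), v, hne, Ne.symm hcon.1, Ne.symm hcon.2, rfl⟩
    have := Set.ncard_le_ncard hsub (Set.toFinite _)
    omega
  choose! φ hφ1 hφ2 using hrel
  have hinj : Set.InjOn φ (NearFn G) := by
    intro f₁ h₁ f₂ h₂ heq
    obtain ⟨l₁, e₁, o₁, hp₁, hl₁, hfl₁, hpad₁⟩ := hφ2 f₁ h₁
    obtain ⟨l₂, e₂, o₂, hp₂, hl₂, hfl₂, hpad₂⟩ := hφ2 f₂ h₂
    rw [heq] at hfl₁ hpad₁
    apply flip_recover h₁.1 h₂.1 hp₁ hp₂ hfl₁ hfl₂
    -- compare the padded lists
    by_cases hl : l₁ = l₂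
    · subst hl
      intro t
      by_cases ht : t < l₁
      · have hpos := hp₁.pos
        have htL : t < L := by omega
        have h3 := hpad₁ ⟨t, htL⟩
        have h4 := hpad₂ ⟨t, htL⟩
        simp only at h3 h4
        rw [← h3, ← h4]
      · have hpos := hp₁.pos
        have htL : l₁ - 1 < L := by omega
        have h3 := hpad₁ ⟨l₁ - 1, htL⟩
        have h4 := hpad₂ ⟨l₁ - 1, htL⟩
        simp only [min_self] at h3 h4
        rw [show min t (l₁ - 1) = l₁ - 1 by omega, ← h3, ← h4]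
    · exfalso
      rcases lt_or_gt_of_ne hl with hlt | hlt
      · have hpos := hp₁.pos
        have h3 := hpad₁ ⟨l₁ - 1, by omega⟩
        have h4 := hpad₂ ⟨l₁ - 1, by omega⟩
        have h5 := hpad₁ ⟨l₁, by omega⟩
        have h6 := hpad₂ ⟨l₁, by omega⟩
        simp only at h3 h4 h5 h6
        rw [show min (l₁ - 1) (l₁ - 1) = l₁ - 1 by omega] at h3
        rw [show min (l₁ - 1) (l₂ - 1) = l₁ - 1 by omega] at h4
        rw [show min l₁ (l₁ - 1) = l₁ - 1 by omega] at h5
        rw [show min l₁ (l₂ - 1) = l₁ by omega] at h6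
        have h7 : e₂ (l₁ - 1) = e₂ l₁ := by rw [← h4, h3, ← h5, h6]
        have := hp₂.e_inj _ _ (by omega) (by omega) h7
        omega
      · have hpos := hp₂.pos
        have h3 := hpad₂ ⟨l₂ - 1, by omega⟩
        have h4 := hpad₁ ⟨l₂ - 1, by omega⟩
        have h5 := hpad₂ ⟨l₂, by omega⟩
        have h6 := hpad₁ ⟨l₂, by omega⟩
        simp only at h3 h4 h5 h6
        rw [show min (l₂ - 1) (l₂ - 1) = l₂ - 1 by omega] at h3
        rw [show min (l₂ - 1) (l₁ - 1) = l₂ - 1 by omega] at h4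
        rw [show min l₂ (l₂ - 1) = l₂ - 1 by omega] at h5
        rw [show min l₂ (l₁ - 1) = l₂ by omega] at h6
        have h7 : e₁ (l₂ - 1) = e₁ l₂ := by rw [← h4, h3, ← h5, h6]
        have := hp₁.e_inj _ _ (by omega) (by omega) h7
        omega
  have hmaps : Set.MapsTo φ (NearFn G) (Set.univ ×ˢ PMFn G) := by
    intro f hf
    exact ⟨Set.mem_univ _, hφ1 f hf⟩
  have h1 := Set.ncard_le_ncard_of_injOn φ hmaps hinj
  rw [Set.ncard_prod] at h1
  have h2 : Set.ncard (Set.univ : Set (Fin L → V)) = Fintype.card V ^ L := by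
    rw [Set.ncard_univ, Nat.card_eq_fintype_card, Fintype.card_fun, Fintype.card_fin]
  rwa [h2] at h1

/-- **Main theorem, independence number form.**  If `G` has a perfect matching then the number
of near-perfect matchings is at most `n ^ (3 α(G))` times the number of perfect matchings. -/
theorem numNearPM_le_pow_indepNum (G : SimpleGraph V) (hex : ∃ M, IsPM G M) :
    numNearPM G ≤ Fintype.card V ^ (3 * G.indepNum) * numPM G := by
  classical
  obtain ⟨M, hM⟩ := hex
  obtain ⟨g, hg⟩ := exists_pmFn_of_isPM hM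
  have hL : ∀ f, f ∈ NearFn G → ∃ l e o, AugPath G f l e o ∧ l ≤ 3 * G.indepNum := by
    intro f hf
    have hne : {v | f v = v}.Nonempty := by
      rw [← Set.ncard_pos (Set.toFinite _), hf.2]
      norm_num
    obtain ⟨u, hu⟩ := hne
    obtain ⟨l, e, o, hp, hmin⟩ := exists_min_augPath hf.1 hg.1 hg.2 hu
    exact ⟨l, e, o, hp, length_le_three_indepNum hf.1 hp hmin⟩
  calc numNearPM G ≤ Set.ncard (NearFn G) := near_le_of_fn G
    _ ≤ Fintype.card V ^ (3 * G.indepNum) * Set.ncard (PMFn G) := near_le_pow_mul_pm G _ hL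
    _ ≤ Fintype.card V ^ (3 * G.indepNum) * numPM G :=
        Nat.mul_le_mul_left _ (pm_le_of_fn G)

end Vale.Agent.Lib.P308
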