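import Vale.Agent.Lib.P308.Count

/-!
Ore type degree conditions: shortest augmenting paths are short.
-/

namespace Vale.Agent.Lib.P308

open Finset

variable {V : Type*}

/-- A chord from an even vertex forward to an odd vertex gives a shorter path. -/
theorem AugPath.jump {G : SimpleGraph V} {f : V → V} {l : ℕ} {e o : ℕ → V}
    (h : AugPath G f l e o) {i j : ℕ} (hij : i < j) (hjl : j < l)
    (hadj : G.Adj (e i) (o j)) :
    ∃ e' o', AugPath G f (i + (l - j)) e' o' := by
  classical
  let e' : ℕ → V := fun t => if t ≤ i then e t else e (t - i + j)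
  let o' : ℕ → V := fun t => if t < i then o t else o (t - i + j)
  have he1 : ∀ t, t ≤ i → e' t = e t := fun t ht => by simp [e', ht]
  have he2 : ∀ t, i < t → e' t = e (t - i + j) := fun t ht => by
    simp only [e']; rw [if_neg (by omega)]
  have ho1 : ∀ t, t < i → o' t = o t := fun t ht => by simp [o', ht]
  have ho2 : ∀ t, i ≤ t → o' t = o (t - i + j) := fun t ht => by
    simp only [o']; rw [if_neg (by omega)]
  refine ⟨e', o', by omega, ?_, ?_, ?_, ?_, ?_, ?_, ?_⟩
  · intro a b ha hb hab
    rcases le_or_gt a i with ha1 | ha1 <;> rcases le_or_gt b i with hb1 | hb1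
    · rw [he1 a ha1, he1 b hb1] at hab
      exact h.e_inj a b (by omega) (by omega) hab
    · rw [he1 a ha1, he2 b hb1] at hab
      have := h.e_inj _ _ (by omega) (by omega) hab
      omega
    · rw [he2 a ha1, he1 b hb1] at hab
      have := h.e_inj _ _ (by omega) (by omega) hab
      omega
    · rw [he2 a ha1, he2 b hb1] at hab
      have := h.e_inj _ _ (by omega) (by omega) hab
      omega
  · intro a b ha hb hab
    rcases lt_or_ge a i with ha1 | ha1 <;> rcases lt_or_ge b i with hb1 | hb1
    · rw [ho1 a ha1, ho1 b hb1] at hab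
      exact h.o_inj a b (by omega) (by omega) hab
    · rw [ho1 a ha1, ho2 b hb1] at hab
      have := h.o_inj _ _ (by omega) (by omega) hab
      omega
    · rw [ho2 a ha1, ho1 b hb1] at hab
      have := h.o_inj _ _ (by omega) (by omega) hab
      omega
    · rw [ho2 a ha1, ho2 b hb1] at hab
      have := h.o_inj _ _ (by omega) (by omega) hab
      omega
  · intro a b ha hb hab
    rcases le_or_gt a i with ha1 | ha1 <;> rcases lt_or_ge b i with hb1 | hb1
    · rw [he1 a ha1, ho1 b hb1] at hab
      exact h.e_ne_o _ _ (by omega) (by omega) hab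
    · rw [he1 a ha1, ho2 b hb1] at hab
      exact h.e_ne_o _ _ (by omega) (by omega) hab
    · rw [he2 a ha1, ho1 b hb1] at hab
      exact h.e_ne_o _ _ (by omega) (by omega) hab
    · rw [he2 a ha1, ho2 b hb1] at hab
      exact h.e_ne_o _ _ (by omega) (by omega) hab
  · intro a ha
    rcases lt_trichotomy a i with ha1 | ha1 | ha1
    · rw [he1 a ha1.le, ho1 a ha1]
      exact h.adj a (by omega)
    · subst ha1
      rw [he1 a le_rfl, ho2 a le_rfl]
      simpa using hadj
    · rw [he2 a ha1, ho2 a ha1.le]
      exact h.adj _ (by omega)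
  · intro a ha
    rcases lt_or_ge a i with ha1 | ha1
    · rw [ho1 a ha1, he1 (a + 1) (by omega)]
      exact h.step a (by omega)
    · rw [ho2 a ha1, he2 (a + 1) (by omega)]
      have : a + 1 - i + j = a - i + j + 1 := by omega
      rw [this]
      exact h.step _ (by omega)
  · rw [he1 0 (Nat.zero_le _)]
    exact h.start
  · rw [ho2 _ (by omega)]
    have : i + (l - j) - 1 - i + j = l - 1 := by omega
    rw [this]
    exact h.last

/-- A matched edge outside the path joined to both ends gives a path of two steps. -/
theorem short_path_two {G : SimpleGraph V} {f : V → V} {u v x y : V}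
    (hu : f u = u) (hv : f v = v) (hfx : f x = y)
    (hux : G.Adj u x) (hyv : G.Adj y v)
    (huv : u ≠ v) (huy : u ≠ y) (hxv : x ≠ v) (hxy : x ≠ y) :
    ∃ e o, AugPath G f 2 e o := by
  classical
  let e : ℕ → V := fun t => if t = 0 then u else y
  let o : ℕ → V := fun t => if t = 0 then x else v
  have hux' : u ≠ x := G.ne_of_adj hux
  have hyv' : y ≠ v := G.ne_of_adj hyv
  have hyx : y ≠ x := Ne.symm hxy
  refine ⟨e, o, by omega, ?_, ?_, ?_, ?_, ?_, ?_, ?_⟩
  · intro a b ha hb hab
    interval_cases a <;> interval_cases b <;> simp_all [e]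
  · intro a b ha hb hab
    interval_cases a <;> interval_cases b <;> simp_all [o]
  · intro a b ha hb
    interval_cases a <;> interval_cases b <;> simp_all [e, o]
  · intro a ha
    interval_cases a
    · simpa [e, o] using hux
    · simpa [e, o] using hyv
  · intro a ha
    have : a = 0 := by omega
    subst this
    simpa [e, o] using hfx
  · simpa [e] using hu
  · simpa [o] using hv

section degrees

variable [Fintype V] [DecidableEq V]

/-- The degree count along a shortest path of length at least three. -/
theorem degree_sum_le {G : SimpleGraph V} [DecidableRel G.Adj] {f : V → V} {l : ℕ} {e o : ℕ → V}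
    (hf : IsMatchingFn G f) (h : AugPath G f l e o)
    (hm : ∀ l' e' o', AugPath G f l' e' o' → l ≤ l')
    (hfix : ∀ v, f v = v → v = e 0 ∨ v = o (l - 1))
    (hl : 3 ≤ l) :
    G.degree (e 0) + G.degree (o (l - 1)) + l ≤ Fintype.card V + 1 := by
  classical
  set u := e 0 with hu
  set v := o (l - 1) with hv
  set P : Finset V := (range l).image e ∪ (range l).image o with hP
  have hPcard : P.card = 2 * l := by
    rw [hP, card_union_of_disjoint, card_image_of_injOn, card_image_of_injOn, card_range]
    · omega
    · intro a ha b hb hab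
      exact h.o_inj a b (mem_range.mp ha) (mem_range.mp hb) hab
    · intro a ha b hb hab
      exact h.e_inj a b (mem_range.mp ha) (mem_range.mp hb) hab
    · rw [Finset.disjoint_left]
      intro x hx hx'
      obtain ⟨a, ha, rfl⟩ := mem_image.mp hx
      obtain ⟨b, hb, hab⟩ := mem_image.mp hx'
      exact h.e_ne_o a b (mem_range.mp ha) (mem_range.mp hb) hab.symm
  -- f preserves the path
  have hfP : ∀ x, x ∈ P → f x ∈ P := by
    intro x hx
    rcases mem_union.mp hx with hx | hx
    · obtain ⟨i, hi, rfl⟩ := mem_image.mp hx
      rcases i with _ | i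
      · rw [h.start]; exact mem_union_left _ hx
      · rw [h.back hf (mem_range.mp hi)]
        exact mem_union_right _ (mem_image.mpr ⟨i, mem_range.mpr (by have := mem_range.mp hi; omega), rfl⟩)
    · obtain ⟨i, hi, rfl⟩ := mem_image.mp hx
      have hi' := mem_range.mp hi
      by_cases hil : i + 1 < l
      · rw [h.step i hil]
        exact mem_union_left _ (mem_image.mpr ⟨i + 1, mem_range.mpr hil, rfl⟩)
      · have : i = l - 1 := by omega
        rw [this, h.last]
        exact mem_union_right _ (mem_image.mpr ⟨l - 1, mem_range.mpr (by omega), rfl⟩)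
  have hfP' : ∀ x, f x ∈ P → x ∈ P := by
    intro x hx
    have := hfP _ hx
    rwa [hf.invol] at this
  have huP : ∀ i, i < l → u ≠ o i := fun i hi => h.e_ne_o 0 i (by omega) hi
  -- outside parts
  set A := G.neighborFinset u \ P with hA
  set B := G.neighborFinset v \ P with hB
  have hAB : A.card + B.card + P.card ≤ Fintype.card V := by
    have hdisj1 : Disjoint A (B.image f) := by
      rw [Finset.disjoint_left]
      intro x hxA hxB
      obtain ⟨y, hy, hxy⟩ := mem_image.mp hxB
      have hxA' := mem_sdiff.mp hxA
      have hyB' := mem_sdiff.mp hy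
      have hux : G.Adj u x := (G.mem_neighborFinset _ _).mp hxA'.1
      have hvy : G.Adj v y := (G.mem_neighborFinset _ _).mp hyB'.1
      -- matched edge outside the path gives a path of two steps
      have hyfix : f y ≠ y := by
        intro hfy
        rcases hfix y hfy with h1 | h1
        · apply hyB'.2
          rw [h1]; exact mem_union_left _ (mem_image.mpr ⟨0, mem_range.mpr (by omega), rfl⟩)
        · apply hyB'.2
          rw [h1]; exact mem_union_right _ (mem_image.mpr ⟨l - 1, mem_range.mpr (by omega), rfl⟩)
      have hvP : v ∈ P := mem_union_right _ (mem_image.mpr ⟨l - 1, mem_range.mpr (by omega), rfl⟩)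
      have huP' : u ∈ P := mem_union_left _ (mem_image.mpr ⟨0, mem_range.mpr (by omega), rfl⟩)
      have hfxy : f x = y := by rw [← hxy, hf.invol]
      obtain ⟨e', o', hp⟩ := short_path_two (G := G) (f := f) (u := u) (v := v) (x := x) (y := y)
        h.start h.last hfxy hux hvy.symm (huP _ (by omega))
        (fun hc => hyB'.2 (hc ▸ huP')) (fun hc => hxA'.2 (hc ▸ hvP))
        (by rw [← hxy]; exact fun hc => hyfix hc)
      have := hm _ _ _ hp
      omega
    have hsub1 : A ⊆ univ \ P := fun x hx => mem_sdiff.mpr ⟨mem_univ _, (mem_sdiff.mp hx).2⟩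
    have hsub2 : B.image f ⊆ univ \ P := by
      intro x hx
      obtain ⟨y, hy, rfl⟩ := mem_image.mp hx
      exact mem_sdiff.mpr ⟨mem_univ _, fun hc => (mem_sdiff.mp hy).2 (hfP' y hc)⟩
    have hcardimg : (B.image f).card = B.card := by
      apply card_image_of_injective
      intro a b hab
      have := congrArg f hab
      rwa [hf.invol, hf.invol] at this
    have hunion := card_le_card (union_subset hsub1 hsub2)
    rw [card_union_of_disjoint hdisj1, hcardimg, card_sdiff_of_subset (subset_univ _), card_univ] at hunion
    have hPle : P.card ≤ Fintype.card V := card_le_univ _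
    omega
  -- inside parts
  set A' := (range l).filter (fun k => 1 ≤ k ∧ G.Adj u (e k)) with hA'
  set B' := (range (l - 1)).filter (fun m => G.Adj v (o m)) with hB'
  have hABin : A'.card + B'.card + 1 ≤ l := by
    have hdisj : Disjoint A' (B'.image (fun m => m + 1)) := by
      rw [Finset.disjoint_left]
      intro k hk hk'
      obtain ⟨m, hm', rfl⟩ := mem_image.mp hk'
      have h1 := mem_filter.mp hk
      have h2 := mem_filter.mp hm'
      have hmr := mem_range.mp h2.1
      have := no_cross hf h hm (i := 0) (k := m + 1) (m := m) (j := l - 1)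
        (Nat.zero_le _) (by omega) (by omega) (by omega) h1.2.2 h2.2.symm
      omega
    have hsub1 : A' ⊆ Finset.Ico 1 l := by
      intro k hk
      have h1 := mem_filter.mp hk
      exact mem_Ico.mpr ⟨h1.2.1, mem_range.mp h1.1⟩
    have hsub2 : B'.image (fun m => m + 1) ⊆ Finset.Ico 1 l := by
      intro k hk
      obtain ⟨m, hm', rfl⟩ := mem_image.mp hk
      have h2 := mem_range.mp (mem_filter.mp hm').1
      exact mem_Ico.mpr ⟨by omega, by omega⟩
    have hcardimg : (B'.image (fun m => m + 1)).card = B'.card :=
      card_image_of_injective _ (fun a b hab => by simpa using hab)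
    have := card_le_card (union_subset hsub1 hsub2)
    rw [card_union_of_disjoint hdisj, hcardimg, Nat.card_Ico] at this
    omega
  -- neighbourhood of u
  have hNu : G.neighborFinset u ⊆ A ∪ ({o 0} ∪ A'.image e) := by
    intro x hx
    by_cases hxP : x ∈ P
    · have hadj : G.Adj u x := (G.mem_neighborFinset _ _).mp hx
      rw [mem_union, mem_union]
      right
      rcases mem_union.mp hxP with hx1 | hx1
      · obtain ⟨i, hi, rfl⟩ := mem_image.mp hx1
        right
        refine mem_image.mpr ⟨i, mem_filter.mpr ⟨hi, ?_, hadj⟩, rfl⟩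
        rcases i with _ | i
        · exact absurd hadj (G.loopless.irrefl _)
        · omega
      · obtain ⟨i, hi, rfl⟩ := mem_image.mp hx1
        left
        rcases i with _ | i
        · simp
        · exfalso
          obtain ⟨e', o', hp⟩ := h.jump (i := 0) (j := i + 1) (by omega) (mem_range.mp hi) hadj
          have := hm _ _ _ hp
          omega
    · exact mem_union_left _ (mem_sdiff.mpr ⟨hx, hxP⟩)
  have hNv : G.neighborFinset v ⊆ B ∪ ({e (l - 1)} ∪ B'.image o) := by
    intro x hx
    by_cases hxP : x ∈ P
    · have hadj : G.Adj v x := (G.mem_neighborFinset _ _).mp hx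
      rw [mem_union, mem_union]
      right
      rcases mem_union.mp hxP with hx1 | hx1
      · obtain ⟨i, hi, rfl⟩ := mem_image.mp hx1
        left
        have hi' := mem_range.mp hi
        by_cases hil : i = l - 1
        · simp [hil]
        · exfalso
          obtain ⟨e', o', hp⟩ := h.jump (i := i) (j := l - 1) (by omega) (by omega) hadj.symm
          have := hm _ _ _ hp
          omega
      · obtain ⟨i, hi, rfl⟩ := mem_image.mp hx1
        right
        have hi' := mem_range.mp hi
        have hine : i ≠ l - 1 := by
          rintro rfl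
          exact G.loopless.irrefl _ hadj
        exact mem_image.mpr ⟨i, mem_filter.mpr ⟨mem_range.mpr (by omega), hadj⟩, rfl⟩
    · exact mem_union_left _ (mem_sdiff.mpr ⟨hx, hxP⟩)
  have hdu : G.degree u ≤ A.card + (1 + A'.card) := by
    rw [← G.card_neighborFinset_eq_degree]
    calc (G.neighborFinset u).card ≤ (A ∪ ({o 0} ∪ A'.image e)).card := card_le_card hNu
      _ ≤ A.card + ({o 0} ∪ A'.image e).card := card_union_le _ _
      _ ≤ A.card + (({o 0} : Finset V).card + (A'.image e).card) :=
          Nat.add_le_add_left (card_union_le _ _) _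
      _ ≤ A.card + (1 + A'.card) := by
          simp only [card_singleton]
          exact Nat.add_le_add_left (Nat.add_le_add_left card_image_le _) _
  have hdv : G.degree v ≤ B.card + (1 + B'.card) := by
    rw [← G.card_neighborFinset_eq_degree]
    calc (G.neighborFinset v).card ≤ (B ∪ ({e (l - 1)} ∪ B'.image o)).card := card_le_card hNv
      _ ≤ B.card + ({e (l - 1)} ∪ B'.image o).card := card_union_le _ _
      _ ≤ B.card + (({e (l - 1)} : Finset V).card + (B'.image o).card) :=
          Nat.add_le_add_left (card_union_le _ _) _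
      _ ≤ B.card + (1 + B'.card) := by
          simp only [card_singleton]
          exact Nat.add_le_add_left (Nat.add_le_add_left card_image_le _) _
  omega

/-- The bound on the length of shortest augmenting paths under the Ore type condition. -/
theorem length_le_of_ore {G : SimpleGraph V} [DecidableRel G.Adj] {f : V → V} {l : ℕ} {e o : ℕ → V}
    (hf : IsMatchingFn G f) (h : AugPath G f l e o)
    (hm : ∀ l' e' o', AugPath G f l' e' o' → l ≤ l')
    (hfix : ∀ v, f v = v → v = e 0 ∨ v = o (l - 1))
    (k : ℕ)
    (hore : ∀ u v, u ≠ v → ¬ G.Adj u v → Fintype.card V ≤ G.degree u + G.degree v + k) :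
    l ≤ max 2 (k + 1) := by
  by_contra hc
  simp only [not_le, max_lt_iff] at hc
  have hl3 : 3 ≤ l := by omega
  have hne : e 0 ≠ o (l - 1) := h.e_ne_o _ _ (by omega) (by omega)
  have hnadj : ¬ G.Adj (e 0) (o (l - 1)) := by
    intro hadj
    obtain ⟨e', o', hp⟩ := h.jump (i := 0) (j := l - 1) (by omega) (by omega) hadj
    have := hm _ _ _ hp
    omega
  have h1 := hore _ _ hne hnadj
  have h2 := degree_sum_le hf h hm hfix hl3
  omega

/-- **Main theorem, Ore form.** -/
theorem numNearPM_le_pow_ore (G : SimpleGraph V) [DecidableRel G.Adj] (k : ℕ)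
    (hore : ∀ u v, u ≠ v → ¬ G.Adj u v → Fintype.card V ≤ G.degree u + G.degree v + k)
    (hex : ∃ M, IsPM G M) :
    numNearPM G ≤ Fintype.card V ^ (max 2 (k + 1)) * numPM G := by
  classical
  obtain ⟨M, hM⟩ := hex
  obtain ⟨g, hg⟩ := exists_pmFn_of_isPM hM
  have hL : ∀ f, f ∈ NearFn G → ∃ l e o, AugPath G f l e o ∧ l ≤ max 2 (k + 1) := by
    intro f hf
    have hne : {v | f v = v}.Nonempty := by
      rw [← Set.ncard_pos (Set.toFinite _), hf.2]
      norm_num
    obtain ⟨u, hu⟩ := hne
    obtain ⟨l, e, o, hp, hmin⟩ := exists_min_augPath hf.1 hg.1 hg.2 hu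
    refine ⟨l, e, o, hp, length_le_of_ore hf.1 hp hmin ?_ k hore⟩
    intro v hv
    by_contra hcon
    simp only [not_or] at hcon
    have hsub : ({e 0, o (l - 1), v} : Set V) ⊆ {v | f v = v} := by
      intro x hx
      simp only [Set.mem_insert_iff, Set.mem_singleton_iff] at hx
      rcases hx with rfl | rfl | rfl
      · exact hp.start
      · exact hp.last
      · exact hv
    have hne' : e 0 ≠ o (l - 1) := hp.e_ne_o _ _ hp.pos (by have := hp.pos; omega)
    have h3 : Set.ncard ({e 0, o (l - 1), v} : Set V) = 3 := by
      rw [Set.ncard_eq_three]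
      exact ⟨e 0, o (l - 1), v, hne', Ne.symm hcon.1, Ne.symm hcon.2, rfl⟩
    have := Set.ncard_le_ncard hsub (Set.toFinite _)
    have h2 := hf.2
    omega
  calc numNearPM G ≤ Set.ncard (NearFn G) := near_le_of_fn G
    _ ≤ Fintype.card V ^ (max 2 (k + 1)) * Set.ncard (PMFn G) := near_le_pow_mul_pm G _ hL
    _ ≤ Fintype.card V ^ (max 2 (k + 1)) * numPM G :=
        Nat.mul_le_mul_left _ (pm_le_of_fn G)

end degrees

end Vale.Agent.Lib.P308
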