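import Mathlib

/-!
Alternating paths for matchings encoded as involutions.
A matching of `G` is encoded by an involution `f` such that every moved point `v` is
adjacent to `f v`.  Fixed points of `f` are the uncovered vertices.
-/

namespace Vale.Agent.Lib.P308

variable {V : Type*}

/-- `f` encodes a matching of `G`. -/
structure IsMatchingFn (G : SimpleGraph V) (f : V → V) : Prop where
  invol : ∀ v, f (f v) = v
  adj : ∀ v, f v ≠ v → G.Adj v (f v)

/-- An augmenting path of the matching `f`, written as
`e 0, o 0, e 1, o 1, ..., e (l-1), o (l-1)`, where `e i` and `o i` are adjacent and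
`o i`, `e (i+1)` are matched, and the two ends are uncovered. -/
structure AugPath (G : SimpleGraph V) (f : V → V) (l : ℕ) (e o : ℕ → V) : Prop where
  pos : 0 < l
  e_inj : ∀ i j, i < l → j < l → e i = e j → i = j
  o_inj : ∀ i j, i < l → j < l → o i = o j → i = j
  e_ne_o : ∀ i j, i < l → j < l → e i ≠ o j
  adj : ∀ i, i < l → G.Adj (e i) (o i)
  step : ∀ i, i + 1 < l → f (o i) = e (i + 1)
  start : f (e 0) = e 0
  last : f (o (l - 1)) = o (l - 1)

lemma AugPath.back {G : SimpleGraph V} {f : V → V} {l : ℕ} {e o : ℕ → V}
    (hf : IsMatchingFn G f) (h : AugPath G f l e o) {i : ℕ} (hi : i + 1 < l) :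
    f (e (i + 1)) = o i := by
  rw [← h.step i hi, hf.invol]

/-- The crossing shortcut: if `e i ~ e k` and `o m ~ o j` with `i ≤ m < k ≤ j`, then a path of
length `i + (k - m) + (l - j)` exists. -/
theorem AugPath.cross {G : SimpleGraph V} {f : V → V} {l : ℕ} {e o : ℕ → V}
    (hf : IsMatchingFn G f) (h : AugPath G f l e o)
    {i k m j : ℕ} (him : i ≤ m) (hmk : m < k) (hkj : k ≤ j) (hjl : j < l)
    (h1 : G.Adj (e i) (e k)) (h2 : G.Adj (o m) (o j)) :
    ∃ e' o', AugPath G f (i + (k - m) + (l - j)) e' o' := by
  classical
  -- new path
  let e' : ℕ → V := fun t =>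
    if t ≤ i then e t else if t ≤ i + (k - m) then o (k - (t - i)) else e (t - (i + (k - m)) + j)
  let o' : ℕ → V := fun t =>
    if t < i then o t else if t < i + (k - m) then e (k - (t - i)) else o (t - (i + (k - m)) + j)
  have he'1 : ∀ t, t ≤ i → e' t = e t := fun t ht => by simp [e', ht]
  have he'2 : ∀ t, i < t → t ≤ i + (k - m) → e' t = o (k - (t - i)) := fun t h1 h2 => by
    simp only [e']; rw [if_neg (by omega), if_pos h2]
  have he'3 : ∀ t, i + (k - m) < t → e' t = e (t - (i + (k - m)) + j) := fun t h1 => by
    simp only [e']; rw [if_neg (by omega), if_neg (by omega)]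
  have ho'1 : ∀ t, t < i → o' t = o t := fun t ht => by simp [o', ht]
  have ho'2 : ∀ t, i ≤ t → t < i + (k - m) → o' t = e (k - (t - i)) := fun t h1 h2 => by
    simp only [o']; rw [if_neg (by omega), if_pos h2]
  have ho'3 : ∀ t, i + (k - m) ≤ t → o' t = o (t - (i + (k - m)) + j) := fun t h1 => by
    simp only [o']; rw [if_neg (by omega), if_neg (by omega)]
  refine ⟨e', o', ?_⟩
  have hback := fun (c : ℕ) (hc : c + 1 < l) => h.back hf hc
  refine ⟨by omega, ?_, ?_, ?_, ?_, ?_, ?_, ?_⟩
  · -- e' injective
    intro a b ha hb hab
    rcases le_or_gt a i with ha1 | ha1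
    · rw [he'1 a ha1] at hab
      rcases le_or_gt b i with hb1 | hb1
      · rw [he'1 b hb1] at hab
        exact h.e_inj a b (by omega) (by omega) hab
      · rcases le_or_gt b (i + (k - m)) with hb2 | hb2
        · rw [he'2 b hb1 hb2] at hab
          exact absurd hab (h.e_ne_o _ _ (by omega) (by omega))
        · rw [he'3 b hb2] at hab
          have := h.e_inj _ _ (by omega) (by omega) hab
          omega
    · rcases le_or_gt a (i + (k - m)) with ha2 | ha2
      · rw [he'2 a ha1 ha2] at hab
        rcases le_or_gt b i with hb1 | hb1
        · rw [he'1 b hb1] at hab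
          exact absurd hab.symm (h.e_ne_o _ _ (by omega) (by omega))
        · rcases le_or_gt b (i + (k - m)) with hb2 | hb2
          · rw [he'2 b hb1 hb2] at hab
            have := h.o_inj _ _ (by omega) (by omega) hab
            omega
          · rw [he'3 b hb2] at hab
            exact absurd hab.symm (h.e_ne_o _ _ (by omega) (by omega))
      · rw [he'3 a ha2] at hab
        rcases le_or_gt b i with hb1 | hb1
        · rw [he'1 b hb1] at hab
          have := h.e_inj _ _ (by omega) (by omega) hab
          omega
        · rcases le_or_gt b (i + (k - m)) with hb2 | hb2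
          · rw [he'2 b hb1 hb2] at hab
            exact absurd hab (h.e_ne_o _ _ (by omega) (by omega))
          · rw [he'3 b hb2] at hab
            have := h.e_inj _ _ (by omega) (by omega) hab
            omega
  · -- o' injective
    intro a b ha hb hab
    rcases lt_or_ge a i with ha1 | ha1
    · rw [ho'1 a ha1] at hab
      rcases lt_or_ge b i with hb1 | hb1
      · rw [ho'1 b hb1] at hab
        exact h.o_inj a b (by omega) (by omega) hab
      · rcases lt_or_ge b (i + (k - m)) with hb2 | hb2
        · rw [ho'2 b hb1 hb2] at hab
          exact absurd hab.symm (h.e_ne_o _ _ (by omega) (by omega))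
        · rw [ho'3 b hb2] at hab
          have := h.o_inj _ _ (by omega) (by omega) hab
          omega
    · rcases lt_or_ge a (i + (k - m)) with ha2 | ha2
      · rw [ho'2 a ha1 ha2] at hab
        rcases lt_or_ge b i with hb1 | hb1
        · rw [ho'1 b hb1] at hab
          exact absurd hab (h.e_ne_o _ _ (by omega) (by omega))
        · rcases lt_or_ge b (i + (k - m)) with hb2 | hb2
          · rw [ho'2 b hb1 hb2] at hab
            have := h.e_inj _ _ (by omega) (by omega) hab
            omega
          · rw [ho'3 b hb2] at hab
            exact absurd hab (h.e_ne_o _ _ (by omega) (by omega))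
      · rw [ho'3 a ha2] at hab
        rcases lt_or_ge b i with hb1 | hb1
        · rw [ho'1 b hb1] at hab
          have := h.o_inj _ _ (by omega) (by omega) hab
          omega
        · rcases lt_or_ge b (i + (k - m)) with hb2 | hb2
          · rw [ho'2 b hb1 hb2] at hab
            exact absurd hab.symm (h.e_ne_o _ _ (by omega) (by omega))
          · rw [ho'3 b hb2] at hab
            have := h.o_inj _ _ (by omega) (by omega) hab
            omega
  · -- e' and o' disjoint
    intro a b ha hb hab
    rcases le_or_gt a i with ha1 | ha1
    · rw [he'1 a ha1] at hab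
      rcases lt_or_ge b i with hb1 | hb1
      · rw [ho'1 b hb1] at hab
        exact h.e_ne_o _ _ (by omega) (by omega) hab
      · rcases lt_or_ge b (i + (k - m)) with hb2 | hb2
        · rw [ho'2 b hb1 hb2] at hab
          have := h.e_inj _ _ (by omega) (by omega) hab
          omega
        · rw [ho'3 b hb2] at hab
          exact h.e_ne_o _ _ (by omega) (by omega) hab
    · rcases le_or_gt a (i + (k - m)) with ha2 | ha2
      · rw [he'2 a ha1 ha2] at hab
        rcases lt_or_ge b i with hb1 | hb1
        · rw [ho'1 b hb1] at hab
          have := h.o_inj _ _ (by omega) (by omega) hab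
          omega
        · rcases lt_or_ge b (i + (k - m)) with hb2 | hb2
          · rw [ho'2 b hb1 hb2] at hab
            exact h.e_ne_o _ _ (by omega) (by omega) hab.symm
          · rw [ho'3 b hb2] at hab
            have := h.o_inj _ _ (by omega) (by omega) hab
            omega
      · rw [he'3 a ha2] at hab
        rcases lt_or_ge b i with hb1 | hb1
        · rw [ho'1 b hb1] at hab
          exact h.e_ne_o _ _ (by omega) (by omega) hab
        · rcases lt_or_ge b (i + (k - m)) with hb2 | hb2
          · rw [ho'2 b hb1 hb2] at hab
            have := h.e_inj _ _ (by omega) (by omega) hab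
            omega
          · rw [ho'3 b hb2] at hab
            exact h.e_ne_o _ _ (by omega) (by omega) hab
  · -- adjacency
    intro a ha
    rcases lt_or_ge a i with ha1 | ha1
    · rw [he'1 a ha1.le, ho'1 a ha1]
      exact h.adj a (by omega)
    · rcases eq_or_lt_of_le ha1 with ha1 | ha1
      · subst ha1
        rw [he'1 i le_rfl, ho'2 i le_rfl (by omega)]
        simpa using h1
      · rcases lt_or_ge a (i + (k - m)) with ha2 | ha2
        · rw [he'2 a ha1 ha2.le, ho'2 a ha1.le ha2]
          exact (h.adj _ (by omega)).symm
        · rcases eq_or_lt_of_le ha2 with ha2 | ha2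
          · have hkk : k - (a - i) = m := by omega
            rw [he'2 a ha1 ha2.symm.le, ho'3 a ha2.le, hkk]
            have : a - (i + (k - m)) + j = j := by omega
            rw [this]; exact h2
          · rw [he'3 a ha2, ho'3 a ha2.le]
            exact h.adj _ (by omega)
  · -- matching steps
    intro a ha
    rcases lt_or_ge (a + 1) (i + 1) with ha1 | ha1
    · have ha0 : a < i := by omega
      rw [ho'1 a ha0, he'1 (a + 1) (by omega)]
      exact h.step a (by omega)
    · rcases lt_or_ge a (i + (k - m)) with ha2 | ha2
      · -- middle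
        have hi1 : i ≤ a := by omega
        rw [ho'2 a hi1 ha2, he'2 (a + 1) (by omega) (by omega)]
        have hcc : k - (a - i) = (k - (a + 1 - i)) + 1 := by omega
        rw [hcc]
        exact hback _ (by omega)
      · rw [ho'3 a ha2, he'3 (a + 1) (by omega)]
        have : a + 1 - (i + (k - m)) + j = a - (i + (k - m)) + j + 1 := by omega
        rw [this]
        exact h.step _ (by omega)
  · -- start
    rw [he'1 0 (Nat.zero_le _)]
    exact h.start
  · -- last
    rw [ho'3 _ (by omega)]
    have : i + (k - m) + (l - j) - 1 - (i + (k - m)) + j = l - 1 := by omega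
    rw [this]
    exact h.last

end Vale.Agent.Lib.P308
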