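import Vale.Agent.Lib.P308.Path

/-!
Existence of augmenting paths, flipping along them, and the counting step.
-/

namespace Vale.Agent.Lib.P308

open Finset

variable {V : Type*}

section exists_path

variable [Finite V]

/-- Given a matching `f` with uncovered vertex `u` and a perfect matching `g`, the alternating
walk from `u` is an augmenting path of `f`. -/
theorem exists_augPath {G : SimpleGraph V} {f g : V → V}
    (hf : IsMatchingFn G f) (hg : IsMatchingFn G g) (hg' : ∀ v, g v ≠ v)
    {u : V} (hu : f u = u) :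
    ∃ l e o, AugPath G f l e o := by
  classical
  let h : V → V := fun x => f (g x)
  have hinj : Function.Injective h := by
    intro a b hab
    have h1 : f (f (g a)) = f (f (g b)) := congrArg f hab
    rw [hf.invol, hf.invol] at h1
    have h2 : g (g a) = g (g b) := congrArg g h1
    rwa [hg.invol, hg.invol] at h2
  let e : ℕ → V := fun t => h^[t] u
  let o : ℕ → V := fun t => g (e t)
  have he0 : e 0 = u := rfl
  have hes : ∀ t, e (t + 1) = f (o t) := fun t => by
    simp only [e, o, Function.iterate_succ_apply', h]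
  -- periodicity gives a fixed point
  have hex : ∃ t, f (o t) = o t := by
    obtain ⟨a, b, hne, hab⟩ := Finite.exists_ne_map_eq_of_infinite (fun t : ℕ => h^[t] u)
    wlog hlt : a < b generalizing a b
    · exact this b a hne.symm hab.symm (by omega)
    have hiter : ∀ c d, h^[c] (h^[d] u) = h^[c + d] u := fun c d => by
      rw [Function.iterate_add_apply]
    have hper : h^[b - a] u = u := by
      have h3 : h^[a] (h^[b - a] u) = h^[a] u := by
        rw [hiter]
        have : a + (b - a) = b := by omega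
        rw [this]; exact hab.symm
      exact (hinj.iterate a) h3
    obtain ⟨r, hr⟩ : ∃ r, b - a = r + 1 := ⟨b - a - 1, by omega⟩
    have hr1 : e (r + 1) = u := by
      show h^[r + 1] u = u
      rw [← hr]; exact hper
    rw [hes] at hr1
    refine ⟨r, ?_⟩
    have h4 : f (f (o r)) = f u := congrArg f hr1
    rw [hf.invol, hu] at h4
    rw [hr1, h4]
  let t0 := Nat.find hex
  have ht0 : f (o t0) = o t0 := Nat.find_spec hex
  have hmin : ∀ t, t < t0 → f (o t) ≠ o t := fun t ht => Nat.find_min hex ht
  have hginj : ∀ a b, g a = g b → a = b := by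
    intro a b hab
    have := congrArg g hab
    rwa [hg.invol, hg.invol] at this
  -- injectivity of e
  have hgoe : ∀ a b, e a = o b → o a = e b := by
    intro a b hab
    show g (e a) = e b
    rw [hab]; exact hg.invol _
  have heinj : ∀ a b, a < b → b ≤ t0 → e a ≠ e b := by
    intro a b hab hb heq
    have h3 : h^[a] (h^[b - a] u) = h^[a] u := by
      rw [← Function.iterate_add_apply]
      have : a + (b - a) = b := by omega
      rw [this]; exact heq.symm
    have h4 := (hinj.iterate a) h3
    obtain ⟨r, hr⟩ : ∃ r, b - a = r + 1 := ⟨b - a - 1, by omega⟩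
    rw [hr] at h4
    have hr1 : e (r + 1) = u := h4
    rw [hes] at hr1
    have h5 : f (f (o r)) = f u := congrArg f hr1
    rw [hf.invol, hu] at h5
    exact hmin r (by omega) (by rw [hr1, h5])
  -- e and o disjoint
  have hne : ∀ d s, s + d ≤ t0 → e s ≠ o (s + d) := by
    intro d
    induction d using Nat.strong_induction_on with
    | _ d ih =>
      intro s hs heq
      rcases d with _ | _ | d
      · exact hg' _ (show g (e s) = e s from heq.symm)
      · -- d = 1
        have h1 : o s = e (s + 1) := hgoe _ _ heq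
        have h2 : f (o s) = o s := by rw [← hes, h1]
        exact hmin s (by omega) h2
      · -- d + 2
        have h1 : o s = e (s + (d + 1 + 1)) := hgoe _ _ heq
        have h2 : e (s + 1) = o (s + 1 + d) := by
          rw [hes, h1]
          have : s + (d + 1 + 1) = (s + d + 1) + 1 := by omega
          rw [this, hes, hf.invol]
          congr 1
          omega
        exact ih d (by omega) (s + 1) (by omega) h2
  refine ⟨t0 + 1, e, o, by omega, ?_, ?_, ?_, ?_, ?_, ?_, ?_⟩
  · intro a b ha hb hab
    by_contra hc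
    rcases lt_or_gt_of_ne hc with hlt | hlt
    · exact heinj a b hlt (by omega) hab
    · exact heinj b a hlt (by omega) hab.symm
  · intro a b ha hb hab
    by_contra hc
    have := hginj _ _ hab
    rcases lt_or_gt_of_ne hc with hlt | hlt
    · exact heinj a b hlt (by omega) this
    · exact heinj b a hlt (by omega) this.symm
  · intro a b ha hb hab
    rcases le_total a b with hle | hle
    · have := hne (b - a) a (by omega)
      rw [show a + (b - a) = b by omega] at this
      exact this hab
    · have h1 : o a = e b := hgoe _ _ hab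
      have := hne (a - b) b (by omega)
      rw [show b + (a - b) = a by omega] at this
      exact this h1.symm
  · intro a _
    exact hg.adj _ (hg' _)
  · intro a _
    exact (hes a).symm
  · exact hu
  · simpa using ht0

/-- There is a shortest augmenting path. -/
theorem exists_min_augPath {G : SimpleGraph V} {f g : V → V}
    (hf : IsMatchingFn G f) (hg : IsMatchingFn G g) (hg' : ∀ v, g v ≠ v)
    {u : V} (hu : f u = u) :
    ∃ l e o, AugPath G f l e o ∧ ∀ l' e' o', AugPath G f l' e' o' → l ≤ l' := by
  classical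
  have hex : ∃ l, ∃ e o, AugPath G f l e o := exists_augPath hf hg hg' hu
  obtain ⟨e, o, h⟩ := Nat.find_spec hex
  refine ⟨Nat.find hex, e, o, h, ?_⟩
  intro l' e' o' h'
  exact Nat.find_min' hex ⟨e', o', h'⟩

end exists_path

/-- For a shortest path, crossing chords are only the degenerate ones. -/
lemma no_cross {G : SimpleGraph V} {f : V → V} {l : ℕ} {e o : ℕ → V}
    (hf : IsMatchingFn G f) (h : AugPath G f l e o)
    (hm : ∀ l' e' o', AugPath G f l' e' o' → l ≤ l')
    {i k m j : ℕ} (him : i ≤ m) (hmk : m < k) (hkj : k ≤ j) (hjl : j < l)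
    (h1 : G.Adj (e i) (e k)) (h2 : G.Adj (o m) (o j)) : i = m ∧ k = j := by
  obtain ⟨e', o', h'⟩ := h.cross hf him hmk hkj hjl h1 h2
  have := hm _ _ _ h'
  omega

section indep

variable [Fintype V] [DecidableEq V]

/-- The length of a shortest augmenting path is at most three times the independence number. -/
theorem length_le_three_indepNum {G : SimpleGraph V} {f : V → V} {l : ℕ} {e o : ℕ → V}
    (hf : IsMatchingFn G f) (h : AugPath G f l e o)
    (hm : ∀ l' e' o', AugPath G f l' e' o' → l ≤ l') :
    l ≤ 3 * G.indepNum := by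
  classical
  set F : Finset ℕ := (range l).filter (fun t => ∀ j, t < j → j < l → ¬ G.Adj (o t) (o j)) with hF
  set T : Finset ℕ := (range l).filter (fun t => ∃ j, t < j ∧ j < l ∧ G.Adj (o t) (o j)) with hT
  have hsplit : l = F.card + T.card := by
    have h1 : (range l).card = F.card + T.card := by
      rw [hF, hT, ← Finset.card_filter_add_card_filter_not (s := range l)
        (p := fun t => ∀ j, t < j → j < l → ¬ G.Adj (o t) (o j))]
      congr 2
      ext t
      simp only [mem_filter, mem_range, not_forall, not_not, exists_prop]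
    simpa using h1
  -- odd vertices without right chord are independent
  have hFcard : F.card ≤ G.indepNum := by
    have hindep : G.IsIndepSet ((F.image o : Finset V) : Set V) := by
      intro x hx y hy hxy
      simp only [coe_image, Set.mem_image, mem_coe] at hx hy
      obtain ⟨a, ha, rfl⟩ := hx
      obtain ⟨b, hb, rfl⟩ := hy
      have ha' := mem_filter.mp ha
      have hb' := mem_filter.mp hb
      have ha1 := mem_range.mp ha'.1
      have hb1 := mem_range.mp hb'.1
      rcases lt_trichotomy a b with hab | hab | hab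
      · exact ha'.2 b hab hb1
      · exact absurd (by rw [hab]) hxy
      · intro hadj
        exact hb'.2 a hab ha1 hadj.symm
    have := hindep.card_le_indepNum
    rwa [card_image_of_injOn] at this
    intro a ha b hb hab
    have ha' := mem_range.mp (mem_filter.mp (mem_coe.mp ha)).1
    have hb' := mem_range.mp (mem_filter.mp (mem_coe.mp hb)).1
    exact h.o_inj a b ha' hb' hab
  -- even vertices after an odd vertex with a right chord, in one residue class
  have hTp : ∀ p : ℕ, (T.filter (fun t => t % 2 = p)).card ≤ G.indepNum := by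
    intro p
    set R := T.filter (fun t => t % 2 = p) with hR
    have hRmem : ∀ t, t ∈ R → t % 2 = p ∧ t < l ∧ ∃ j, t < j ∧ j < l ∧ G.Adj (o t) (o j) := by
      intro t ht
      have h1 := mem_filter.mp ht
      have h2 := mem_filter.mp h1.1
      exact ⟨h1.2, mem_range.mp h2.1, h2.2⟩
    have hindep : G.IsIndepSet ((R.image (fun t => e (t + 1)) : Finset V) : Set V) := by
      intro x hx y hy hxy
      simp only [coe_image, Set.mem_image, mem_coe] at hx hy
      obtain ⟨a, ha, rfl⟩ := hx
      obtain ⟨b, hb, rfl⟩ := hy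
      obtain ⟨hap, hal, ja, hja, hjal, hadja⟩ := hRmem a ha
      obtain ⟨hbp, hbl, jb, hjb, hjbl, hadjb⟩ := hRmem b hb
      intro hadj
      rcases lt_trichotomy a b with hab | hab | hab
      · have hgap : a + 1 < b := by omega
        have := no_cross hf h hm (i := a + 1) (k := b + 1) (m := b) (j := jb)
          (by omega) (by omega) (by omega) hjbl hadj hadjb
        omega
      · exact hxy (by rw [hab])
      · have hgap : b + 1 < a := by omega
        have := no_cross hf h hm (i := b + 1) (k := a + 1) (m := a) (j := ja)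
          (by omega) (by omega) (by omega) hjal hadj.symm hadja
        omega
    have := hindep.card_le_indepNum
    rwa [card_image_of_injOn] at this
    intro a ha b hb hab
    obtain ⟨_, hal, ja, hja, hjal, _⟩ := hRmem a (mem_coe.mp ha)
    obtain ⟨_, hbl, jb, hjb, hjbl, _⟩ := hRmem b (mem_coe.mp hb)
    have := h.e_inj (a + 1) (b + 1) (by omega) (by omega) hab
    omega
  have hT2 : T.card ≤ 2 * G.indepNum := by
    have h0 := hTp 0
    have h1 := hTp 1
    have hsum : T.card = (T.filter (fun t => t % 2 = 0)).card + (T.filter (fun t => t % 2 = 1)).card := by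
      rw [← Finset.card_filter_add_card_filter_not (s := T) (p := fun t => t % 2 = 0)]
      congr 2
      ext t
      simp only [mem_filter]
      refine and_congr_right (fun _ => ?_)
      omega
    omega
  omega

end indep

section flip

variable [DecidableEq V]

open Classical in
/-- Flip the matching `f` along the path. -/
noncomputable def flipFn (f : V → V) (l : ℕ) (e o : ℕ → V) : V → V := fun x =>
  if h : ∃ i, i < l ∧ x = e i then o (Classical.choose h)
  else if h : ∃ i, i < l ∧ x = o i then e (Classical.choose h)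
  else f x

lemma flipFn_e {G : SimpleGraph V} {f : V → V} {l : ℕ} {e o : ℕ → V}
    (h : AugPath G f l e o) {i : ℕ} (hi : i < l) : flipFn f l e o (e i) = o i := by
  classical
  have hex : ∃ j, j < l ∧ e i = e j := ⟨i, hi, rfl⟩
  unfold flipFn
  rw [dif_pos hex]
  have hs := Classical.choose_spec hex
  rw [h.e_inj _ _ hs.1 hi hs.2.symm]

lemma flipFn_o {G : SimpleGraph V} {f : V → V} {l : ℕ} {e o : ℕ → V}
    (h : AugPath G f l e o) {i : ℕ} (hi : i < l) : flipFn f l e o (o i) = e i := by
  classical
  have hne : ¬ ∃ j, j < l ∧ o i = e j := by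
    rintro ⟨j, hj, hij⟩
    exact h.e_ne_o j i hj hi hij.symm
  have hex : ∃ j, j < l ∧ o i = o j := ⟨i, hi, rfl⟩
  unfold flipFn
  rw [dif_neg hne, dif_pos hex]
  have hs := Classical.choose_spec hex
  rw [h.o_inj _ _ hs.1 hi hs.2.symm]

lemma flipFn_off {f : V → V} {l : ℕ} {e o : ℕ → V} {x : V}
    (h1 : ∀ i, i < l → x ≠ e i) (h2 : ∀ i, i < l → x ≠ o i) : flipFn f l e o x = f x := by
  classical
  have hne1 : ¬ ∃ j, j < l ∧ x = e j := by
    rintro ⟨j, hj, hij⟩; exact h1 j hj hij
  have hne2 : ¬ ∃ j, j < l ∧ x = o j := by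
    rintro ⟨j, hj, hij⟩; exact h2 j hj hij
  unfold flipFn
  rw [dif_neg hne1, dif_neg hne2]

/-- Flipping gives a perfect matching when the only uncovered vertices are the path ends. -/
theorem flipFn_perfect {G : SimpleGraph V} {f : V → V} {l : ℕ} {e o : ℕ → V}
    (hf : IsMatchingFn G f) (h : AugPath G f l e o)
    (hfix : ∀ v, f v = v → v = e 0 ∨ v = o (l - 1)) :
    IsMatchingFn G (flipFn f l e o) ∧ ∀ v, flipFn f l e o v ≠ v := by
  have hcases : ∀ x : V, (∃ i, i < l ∧ x = e i) ∨ (∃ i, i < l ∧ x = o i) ∨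
      ((∀ i, i < l → x ≠ e i) ∧ (∀ i, i < l → x ≠ o i)) := by
    intro x
    by_cases h1 : ∃ i, i < l ∧ x = e i
    · exact Or.inl h1
    by_cases h2 : ∃ i, i < l ∧ x = o i
    · exact Or.inr (Or.inl h2)
    refine Or.inr (Or.inr ⟨?_, ?_⟩)
    · intro i hi hx; exact h1 ⟨i, hi, hx⟩
    · intro i hi hx; exact h2 ⟨i, hi, hx⟩
  have hoff : ∀ x : V, (∀ i, i < l → x ≠ e i) → (∀ i, i < l → x ≠ o i) →
      f x ≠ x ∧ (∀ i, i < l → f x ≠ e i) ∧ (∀ i, i < l → f x ≠ o i) := by
    intro x h1 h2
    refine ⟨?_, ?_, ?_⟩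
    · intro hx
      rcases hfix x hx with hx' | hx'
      · exact h1 0 h.pos hx'
      · exact h2 _ (by have := h.pos; omega) hx'
    · intro i hi hfx
      have hx : x = f (e i) := by rw [← hfx, hf.invol]
      rcases i with _ | i
      · rw [h.start] at hx
        exact h1 0 hi hx
      · rw [h.back hf hi] at hx
        exact h2 i (by omega) hx
    · intro i hi hfx
      have hx : x = f (o i) := by rw [← hfx, hf.invol]
      by_cases hil : i + 1 < l
      · rw [h.step i hil] at hx
        exact h1 _ hil hx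
      · have hi' : i = l - 1 := by omega
        rw [hi', h.last] at hx
        exact h2 _ (by omega) hx
  refine ⟨⟨?_, ?_⟩, ?_⟩
  · intro x
    rcases hcases x with ⟨i, hi, rfl⟩ | ⟨i, hi, rfl⟩ | ⟨h1, h2⟩
    · rw [flipFn_e h hi, flipFn_o h hi]
    · rw [flipFn_o h hi, flipFn_e h hi]
    · obtain ⟨_, h3, h4⟩ := hoff x h1 h2
      rw [flipFn_off h1 h2, flipFn_off h3 h4, hf.invol]
  · intro x _
    rcases hcases x with ⟨i, hi, rfl⟩ | ⟨i, hi, rfl⟩ | ⟨h1, h2⟩
    · rw [flipFn_e h hi]; exact h.adj i hi
    · rw [flipFn_o h hi]; exact (h.adj i hi).symm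
    · obtain ⟨h0, _, _⟩ := hoff x h1 h2
      rw [flipFn_off h1 h2]
      exact hf.adj x h0
  · intro x
    rcases hcases x with ⟨i, hi, rfl⟩ | ⟨i, hi, rfl⟩ | ⟨h1, h2⟩
    · rw [flipFn_e h hi]; exact (h.e_ne_o i i hi hi).symm
    · rw [flipFn_o h hi]; exact h.e_ne_o i i hi hi
    · obtain ⟨h0, _, _⟩ := hoff x h1 h2
      rw [flipFn_off h1 h2]
      exact h0

/-- The matching and its path are recovered from the flipped matching and the list of `e i`. -/
theorem flip_recover {G : SimpleGraph V} {f₁ f₂ f' : V → V} {l₁ l₂ : ℕ} {e₁ o₁ e₂ o₂ : ℕ → V}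
    (hf₁ : IsMatchingFn G f₁) (hf₂ : IsMatchingFn G f₂)
    (h₁ : AugPath G f₁ l₁ e₁ o₁) (h₂ : AugPath G f₂ l₂ e₂ o₂)
    (hflip₁ : flipFn f₁ l₁ e₁ o₁ = f') (hflip₂ : flipFn f₂ l₂ e₂ o₂ = f')
    (hpad : ∀ t, e₁ (min t (l₁ - 1)) = e₂ (min t (l₂ - 1))) : f₁ = f₂ := by
  have hl : l₁ = l₂ := by
    by_contra hne
    rcases lt_or_gt_of_ne hne with hlt | hlt
    · have h1 := hpad (l₁ - 1)
      have h2 := hpad l₁
      have hp := h₁.pos
      rw [show min (l₁ - 1) (l₁ - 1) = l₁ - 1 by omega,
        show min (l₁ - 1) (l₂ - 1) = l₁ - 1 by omega] at h1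
      rw [show min l₁ (l₁ - 1) = l₁ - 1 by omega, show min l₁ (l₂ - 1) = l₁ by omega] at h2
      have := h₂.e_inj (l₁ - 1) l₁ (by omega) (by omega) (h1.symm.trans h2)
      omega
    · have h1 := hpad (l₂ - 1)
      have h2 := hpad l₂
      have hp := h₂.pos
      rw [show min (l₂ - 1) (l₂ - 1) = l₂ - 1 by omega,
        show min (l₂ - 1) (l₁ - 1) = l₂ - 1 by omega] at h1
      rw [show min l₂ (l₂ - 1) = l₂ - 1 by omega, show min l₂ (l₁ - 1) = l₂ by omega] at h2
      have := h₁.e_inj (l₂ - 1) l₂ (by omega) (by omega) (h1.trans h2.symm)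
      omega
  subst hl
  have he : ∀ t, t < l₁ → e₁ t = e₂ t := by
    intro t ht
    have := hpad t
    rwa [min_eq_left (by omega)] at this
  have ho : ∀ t, t < l₁ → o₁ t = o₂ t := by
    intro t ht
    have h1 := flipFn_e h₁ ht
    have h2 := flipFn_e h₂ ht
    rw [hflip₁] at h1
    rw [hflip₂, ← he t ht] at h2
    rw [← h1, h2]
  funext x
  by_cases hxe : ∃ i, i < l₁ ∧ x = e₁ i
  · obtain ⟨i, hi, rfl⟩ := hxe
    rcases i with _ | i
    · rw [h₁.start, he 0 hi, h₂.start]
    · rw [h₁.back hf₁ hi, he _ hi, h₂.back hf₂ hi, ho i (by omega)]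
  by_cases hxo : ∃ i, i < l₁ ∧ x = o₁ i
  · obtain ⟨i, hi, rfl⟩ := hxo
    by_cases hil : i + 1 < l₁
    · rw [h₁.step i hil, ho i hi, h₂.step i hil, he _ hil]
    · have hi' : i = l₁ - 1 := by omega
      have h3 := h₁.last
      have h4 := h₂.last
      rw [hi', h3, ho _ (by omega), h4]
  have h1 : ∀ i, i < l₁ → x ≠ e₁ i := fun i hi hx => hxe ⟨i, hi, hx⟩
  have h2 : ∀ i, i < l₁ → x ≠ o₁ i := fun i hi hx => hxo ⟨i, hi, hx⟩
  have h3 : ∀ i, i < l₁ → x ≠ e₂ i := fun i hi hx => hxe ⟨i, hi, by rw [he i hi]; exact hx⟩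
  have h4 : ∀ i, i < l₁ → x ≠ o₂ i := fun i hi hx => hxo ⟨i, hi, by rw [ho i hi]; exact hx⟩
  have h5 := flipFn_off (f := f₁) (l := l₁) (e := e₁) (o := o₁) h1 h2
  have h6 := flipFn_off (f := f₂) (l := l₁) (e := e₂) (o := o₂) h3 h4
  rw [hflip₁] at h5
  rw [hflip₂] at h6
  rw [← h5, ← h6]

end flip

end Vale.Agent.Lib.P308
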